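import Vale.Agent.P287Z.O.L.Props
import Vale.Agent.P287Z.O.H409.Peel

/-!
# Devissage in the bounded derived category (P287 port of P294, block B10)
-/

open CategoryTheory Limits Pretriangulated Category HomologicalComplex

namespace Vale.Agent.P287Z.O.H408

open Vale.Agent.P287Z.O.L Vale.Agent.P287Z.O.H409

section Tri

variable {𝒟 : Type 1} [Category.{1} 𝒟] [Preadditive 𝒟] [HasZeroObject 𝒟]
    [HasShift 𝒟 ℤ] [∀ n : ℤ, (shiftFunctor 𝒟 n).Additive] [Pretriangulated 𝒟]
    {I : 𝒟 → Prop}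

theorem TriCl.iso_iff (hI : TriCl I) {X Y : 𝒟} (e : X ≅ Y) : I X ↔ I Y :=
  ⟨hI.iso X Y e, hI.iso Y X e.symm⟩

theorem TriCl.shift_iff (hI : TriCl I) (X : 𝒟) (n : ℤ) : I (X⟦n⟧) ↔ I X :=
  ⟨fun h => hI.iso _ _ (shiftShiftNeg X n) (hI.shift _ (-n) h), hI.shift X n⟩

theorem TriCl.ext₃ (hI : TriCl I) (T : Triangle 𝒟) (hT : T ∈ distTriang 𝒟) (h₁ : I T.obj₁)
    (h₂ : I T.obj₂) : I T.obj₃ :=
  hI.ext₂ T.rotate (rot_of_distTriang _ hT) h₂ (hI.shift _ 1 h₁)

theorem TriCl.ext₁ (hI : TriCl I) (T : Triangle 𝒟) (hT : T ∈ distTriang 𝒟) (h₂ : I T.obj₂)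
    (h₃ : I T.obj₃) : I T.obj₁ :=
  hI.ext₂ T.invRotate (inv_rot_of_distTriang _ hT) (hI.shift _ (-1) h₃) h₂

theorem dist_of_iso {T : Triangle 𝒟} (hT : T ∈ distTriang 𝒟) {X Y Z : 𝒟} (eX : T.obj₁ ≅ X)
    (eY : T.obj₂ ≅ Y) (eZ : T.obj₃ ≅ Z) :
    ∃ f g h, Triangle.mk (X := X) (Y := Y) (Z := Z) f g h ∈ distTriang 𝒟 := by
  refine ⟨eX.inv ≫ T.mor₁ ≫ eY.hom, eY.inv ≫ T.mor₂ ≫ eZ.hom, eZ.inv ≫ T.mor₃ ≫ eX.hom⟦(1 : ℤ)⟧',
    isomorphic_distinguished _ hT _ (Triangle.isoMk _ _ eX.symm eY.symm eZ.symm ?_ ?_ ?_)⟩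
  · change (eX.inv ≫ T.mor₁ ≫ eY.hom) ≫ eY.inv = eX.inv ≫ T.mor₁
    simp only [assoc, Iso.hom_inv_id, comp_id]
  · change (eY.inv ≫ T.mor₂ ≫ eZ.hom) ≫ eZ.inv = eY.inv ≫ T.mor₂
    simp only [assoc, Iso.hom_inv_id, comp_id]
  · change (eZ.inv ≫ T.mor₃ ≫ eX.hom⟦(1 : ℤ)⟧') ≫ eX.inv⟦(1 : ℤ)⟧' = eZ.inv ≫ T.mor₃
    simp only [assoc, ← Functor.map_comp, Iso.hom_inv_id]
    rw [CategoryTheory.Functor.map_id, comp_id]

end Tri

variable {C : Type 1} [Category.{1} C] [Abelian C] [HasDerivedCategory.{1} C]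
  {I : DerivedCategory C → Prop}

/-- a distinguished triangle in the derived category from one in the homotopy category -/
theorem dist_Q {X Y Z : CochainComplex C ℤ}
    (h : ∃ f g h, Triangle.mk (C := HomotopyCategory C (ComplexShape.up ℤ))
      (X := (HomotopyCategory.quotient C (ComplexShape.up ℤ)).obj X)
      (Y := (HomotopyCategory.quotient C (ComplexShape.up ℤ)).obj Y)
      (Z := (HomotopyCategory.quotient C (ComplexShape.up ℤ)).obj Z) f g h ∈
      distTriang _) :
    ∃ f g h, Triangle.mk (X := DerivedCategory.Q.obj X) (Y := DerivedCategory.Q.obj Y)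
      (Z := DerivedCategory.Q.obj Z) f g h ∈ distTriang (DerivedCategory C) := by
  obtain ⟨f, g, h, hT⟩ := h
  have h1 := (DerivedCategory.Qh (C := C)).map_distinguished _ hT
  exact dist_of_iso h1 ((DerivedCategory.quotientCompQhIso C).app X)
    ((DerivedCategory.quotientCompQhIso C).app Y) ((DerivedCategory.quotientCompQhIso C).app Z)

/-- the class of a single complex in any degree -/
theorem single_mem (hI : TriCl I) (A : C) (h : I ((DerivedCategory.singleFunctor C 0).obj A)) (i : ℤ) :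
    I (DerivedCategory.Q.obj ((single C (ComplexShape.up ℤ) i).obj A)) := by
  have e1 : ((DerivedCategory.singleFunctor C 0).obj A)⟦-i⟧ ≅
      (DerivedCategory.singleFunctor C i).obj A :=
    ((DerivedCategory.singleFunctors C).shiftIso (-i) i 0 (by lia)).app A
  have e2 : (DerivedCategory.singleFunctor C i).obj A ≅
      DerivedCategory.Q.obj ((single C (ComplexShape.up ℤ) i).obj A) :=
    (DerivedCategory.singleFunctorIsoCompQ C i).app A
  exact hI.iso _ _ (e1 ≪≫ e2) (hI.shift _ _ h)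

/-- bounded complexes -/
theorem dev_complex (hI : TriCl I) (K : CochainComplex C ℤ) (a b : ℤ) (ha : K.IsStrictlyGE a)
    (hb : K.IsStrictlyLE b) (h : ∀ i, a ≤ i → i ≤ b → I ((DerivedCategory.singleFunctor C 0).obj (K.X i))) :
    I (DerivedCategory.Q.obj K) := by
  obtain ⟨n, hn⟩ : ∃ n : ℕ, b - a < n := ⟨(b - a + 1).toNat, by lia⟩
  induction n generalizing K a with
  | zero =>
    refine hI.zero _ ?_
    have h1 : IsZero K := by
      rw [IsZero.iff_id_eq_zero]
      ext i
      by_cases hi : b < i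
      · exact (K.isZero_of_isStrictlyLE b i hi).eq_of_src _ _
      · exact (K.isZero_of_isStrictlyGE a i (by push_cast at hn; lia)).eq_of_src _ _
    exact DerivedCategory.Q.map_isZero h1
  | succ n ih =>
    obtain ⟨f, g, w, hT⟩ := dist_Q (botT K a)
    refine hI.ext₂ _ hT ?_ ?_
    · refine ih (botK K a) (a + 1) (botK_isStrictlyGE K a _ rfl) ?_ (fun i hi hi' => ?_)
        (by push_cast at hn; lia)
      · rw [CochainComplex.isStrictlyLE_iff]
        intro i hi
        by_cases hia : i = a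
        · subst hia
          exact botK_isZero K i
        · exact (K.isZero_of_isStrictlyLE b i hi).of_iso (botK_X K a i hia)
      · exact hI.iso _ _ ((DerivedCategory.singleFunctor C 0).mapIso (botK_X K a i (by lia))).symm
          (h i (by lia) hi')
    · by_cases hab : a ≤ b
      · exact single_mem hI _ (h a le_rfl hab) a
      · refine hI.zero _ ?_
        have h1 : IsZero (K.X a) := K.isZero_of_isStrictlyLE b a (by lia)
        exact DerivedCategory.Q.map_isZero ((single C (ComplexShape.up ℤ) a).map_isZero h1)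

/-- **t-structure devissage** -/
theorem dev_bounded (hI : TriCl I) (h : ∀ A : C, I ((DerivedCategory.singleFunctor C 0).obj A))
    (E : DerivedCategory C) (hE : (DerivedCategory.TStructure.t (C := C)).bounded E) : I E := by
  obtain ⟨⟨a, ha⟩, ⟨b, hb⟩⟩ := hE
  have : E.IsGE a := ha
  have : E.IsLE b := hb
  obtain ⟨K, hK, hK', ⟨e⟩⟩ := DerivedCategory.exists_iso_Q_obj_of_isGE_of_isLE E a b
  exact hI.iso _ _ e.symm (dev_complex hI K a b hK hK' fun i _ _ => h _)

/-- the triangle of a short exact sequence -/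
theorem dist_ses {S : ShortComplex C} (hS : S.ShortExact) : ∃ h,
    Triangle.mk ((DerivedCategory.singleFunctor C 0).map S.f)
      ((DerivedCategory.singleFunctor C 0).map S.g) h ∈ distTriang (DerivedCategory C) :=
  ⟨_, hS.singleTriangle_distinguished⟩

theorem ses₁ (hI : TriCl I) {S : ShortComplex C} (hS : S.ShortExact)
    (h₂ : I ((DerivedCategory.singleFunctor C 0).obj S.X₂))
    (h₃ : I ((DerivedCategory.singleFunctor C 0).obj S.X₃)) :
    I ((DerivedCategory.singleFunctor C 0).obj S.X₁) := by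
  obtain ⟨h, hT⟩ := dist_ses hS
  exact TriCl.ext₁ hI _ hT h₂ h₃

theorem ses₂ (hI : TriCl I) {S : ShortComplex C} (hS : S.ShortExact)
    (h₁ : I ((DerivedCategory.singleFunctor C 0).obj S.X₁))
    (h₃ : I ((DerivedCategory.singleFunctor C 0).obj S.X₃)) :
    I ((DerivedCategory.singleFunctor C 0).obj S.X₂) := by
  obtain ⟨h, hT⟩ := dist_ses hS
  exact hI.ext₂ _ hT h₁ h₃

theorem ses₃ (hI : TriCl I) {S : ShortComplex C} (hS : S.ShortExact)
    (h₁ : I ((DerivedCategory.singleFunctor C 0).obj S.X₁))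
    (h₂ : I ((DerivedCategory.singleFunctor C 0).obj S.X₂)) :
    I ((DerivedCategory.singleFunctor C 0).obj S.X₃) := by
  obtain ⟨h, hT⟩ := dist_ses hS
  exact TriCl.ext₃ hI _ hT h₁ h₂

/-- the triangle of a short exact sequence of complexes -/
theorem dist_sesC {S : ShortComplex (CochainComplex C ℤ)} (hS : S.ShortExact) : ∃ h,
    Triangle.mk (DerivedCategory.Q.map S.f) (DerivedCategory.Q.map S.g) h ∈
      distTriang (DerivedCategory C) :=
  ⟨_, DerivedCategory.triangleOfSES_distinguished hS⟩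

theorem sesC₁ (hI : TriCl I) {S : ShortComplex (CochainComplex C ℤ)} (hS : S.ShortExact)
    (h₂ : I (DerivedCategory.Q.obj S.X₂)) (h₃ : I (DerivedCategory.Q.obj S.X₃)) :
    I (DerivedCategory.Q.obj S.X₁) := by
  obtain ⟨h, hT⟩ := dist_sesC hS
  exact TriCl.ext₁ hI _ hT h₂ h₃

theorem sesC₂ (hI : TriCl I) {S : ShortComplex (CochainComplex C ℤ)} (hS : S.ShortExact)
    (h₁ : I (DerivedCategory.Q.obj S.X₁)) (h₃ : I (DerivedCategory.Q.obj S.X₃)) :
    I (DerivedCategory.Q.obj S.X₂) := by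
  obtain ⟨h, hT⟩ := dist_sesC hS
  exact hI.ext₂ _ hT h₁ h₃

theorem sesC₃ (hI : TriCl I) {S : ShortComplex (CochainComplex C ℤ)} (hS : S.ShortExact)
    (h₁ : I (DerivedCategory.Q.obj S.X₁)) (h₂ : I (DerivedCategory.Q.obj S.X₂)) :
    I (DerivedCategory.Q.obj S.X₃) := by
  obtain ⟨h, hT⟩ := dist_sesC hS
  exact TriCl.ext₃ hI _ hT h₁ h₂

/-- **D4.** a quotient of complexes with bounded kernel, all of whose terms are in `I` -/
theorem dev_epi (hI : TriCl I) {K L : CochainComplex C ℤ} (f : K ⟶ L) [Epi f] (a b : ℤ)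
    (ha : ∀ i < a, IsIso (f.f i)) (hb : ∀ i, b < i → IsIso (f.f i))
    (h : ∀ i, I ((DerivedCategory.singleFunctor C 0).obj (kernel (f.f i)))) :
    I (DerivedCategory.Q.obj K) ↔ I (DerivedCategory.Q.obj L) := by
  let S : ShortComplex (CochainComplex C ℤ) := ShortComplex.mk (kernel.ι f) f (kernel.condition f)
  have hS : S.ShortExact :=
    { exact := ShortComplex.exact_of_f_is_kernel _ (kernelIsKernel f)
      mono_f := inferInstanceAs (Mono (kernel.ι f))
      epi_g := inferInstanceAs (Epi f) }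
  let e : ∀ i, (kernel f).X i ≅ kernel (f.f i) := fun i => PreservesKernel.iso (eval C _ i) f
  have hz : ∀ i, IsIso (f.f i) → IsZero ((kernel f).X i) := fun i hi =>
    (isZero_kernel_of_mono (f.f i)).of_iso (e i)
  have h1 : I (DerivedCategory.Q.obj (kernel f)) := by
    refine dev_complex hI (kernel f) a b ?_ ?_ fun i _ _ =>
      hI.iso _ _ ((DerivedCategory.singleFunctor C 0).mapIso (e i)).symm (h i)
    · rw [CochainComplex.isStrictlyGE_iff]
      exact fun i hi => hz i (ha i hi)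
    · rw [CochainComplex.isStrictlyLE_iff]
      exact fun i hi => hz i (hb i hi)
  exact ⟨fun h2 => sesC₃ hI hS h1 h2, fun h2 => sesC₂ hI hS h1 h2⟩

/-- **D4.** a subcomplex with bounded cokernel, all of whose terms are in `I` -/
theorem dev_mono (hI : TriCl I) {K L : CochainComplex C ℤ} (f : K ⟶ L) [Mono f] (a b : ℤ)
    (ha : ∀ i < a, IsIso (f.f i)) (hb : ∀ i, b < i → IsIso (f.f i))
    (h : ∀ i, I ((DerivedCategory.singleFunctor C 0).obj (cokernel (f.f i)))) :
    I (DerivedCategory.Q.obj K) ↔ I (DerivedCategory.Q.obj L) := by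
  let S : ShortComplex (CochainComplex C ℤ) :=
    ShortComplex.mk f (cokernel.π f) (cokernel.condition f)
  have hS : S.ShortExact :=
    { exact := ShortComplex.exact_of_g_is_cokernel _ (cokernelIsCokernel f)
      mono_f := inferInstanceAs (Mono f)
      epi_g := inferInstanceAs (Epi (cokernel.π f)) }
  let e : ∀ i, (cokernel f).X i ≅ cokernel (f.f i) := fun i =>
    PreservesCokernel.iso (eval C _ i) f
  have hz : ∀ i, IsIso (f.f i) → IsZero ((cokernel f).X i) := fun i hi =>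
    (isZero_cokernel_of_epi (f.f i)).of_iso (e i)
  have h1 : I (DerivedCategory.Q.obj (cokernel f)) := by
    refine dev_complex hI (cokernel f) a b ?_ ?_ fun i _ _ =>
      hI.iso _ _ ((DerivedCategory.singleFunctor C 0).mapIso (e i)).symm (h i)
    · rw [CochainComplex.isStrictlyGE_iff]
      exact fun i hi => hz i (ha i hi)
    · rw [CochainComplex.isStrictlyLE_iff]
      exact fun i hi => hz i (hb i hi)
  exact ⟨fun h2 => sesC₂ hI hS h2 h1, fun h2 => sesC₁ hI hS h2 h1⟩

end Vale.Agent.P287Z.O.H408
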