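import Vale.Agent.P287Z.O.L.B2
import Vale.Agent.P287Z.O.H408.Dev

/-!
# Free modules are in the subcategory generated by the line bundles (P287 port of P294, block B10)
-/

set_option linter.unusedSectionVars false

open CategoryTheory Limits Pretriangulated MvPolynomial

namespace Vale.Agent.P287Z.O.H408

open Vale.Agent.P287Z.O.L Vale.Agent.P287Z.O.V

section Mat

variable {ι κ μ : Type} [Fintype ι] [Fintype κ] [Fintype μ] [DecidableEq ι] [DecidableEq κ]
  [DecidableEq μ]

/-- the matrix of a map of index sets -/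
noncomputable def Pm (φ : κ → ι) : Matrix ι κ (MvPolynomial (Fin 6) ℂ) :=
  fun i j => if i = φ j then 1 else 0

theorem hgM_Pm {φ : κ → ι} {q : ι → ℤ} {q' : κ → ℤ} (h : ∀ j, q' j = q (φ j)) :
    HgM q' q (Pm φ) := fun i j => by
  unfold Pm
  split_ifs with hi
  · rw [h, ← hi, sub_self]
    exact hga_one
  · exact hga_zero _

theorem hgM_Pt {φ : κ → ι} {q : ι → ℤ} {q' : κ → ℤ} (h : ∀ j, q' j = q (φ j)) :
    HgM q q' (Pm φ).transpose := fun i j => by
  rw [Matrix.transpose_apply]
  unfold Pm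
  split_ifs with hi
  · rw [h, ← hi, sub_self]
    exact hga_one
  · exact hga_zero _

theorem Pt_mul_Pm {φ : κ → ι} (hφ : Function.Injective φ) :
    (Pm φ).transpose * Pm φ = 1 := by
  ext1 i j
  rw [Matrix.mul_apply, Finset.sum_eq_single (φ i)]
  · rw [Matrix.transpose_apply]
    unfold Pm
    rw [if_pos rfl, one_mul, Matrix.one_apply]
    exact if_congr hφ.eq_iff rfl rfl
  · intro b _ hb
    rw [Matrix.transpose_apply]
    unfold Pm
    rw [if_neg hb, zero_mul]
  · intro h
    exact absurd (Finset.mem_univ _) h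

theorem Pt_mul_Pm_zero {φ : κ → ι} {ψ : μ → ι} (h : ∀ i j, φ i ≠ ψ j) :
    (Pm φ).transpose * Pm ψ = 0 := by
  ext1 i j
  rw [Matrix.mul_apply]
  refine Finset.sum_eq_zero fun b _ => ?_
  rw [Matrix.transpose_apply]
  unfold Pm
  split_ifs with h1 h2
  · exact absurd (h1.symm.trans h2) (h i j)
  all_goals simp

theorem Pm_mul_Pt (φ : κ → ι) (hφ : Function.Injective φ) (i j : ι) :
    (Pm φ * (Pm φ).transpose) i j = if i = j ∧ i ∈ Set.range φ then 1 else 0 := by
  rw [Matrix.mul_apply]
  by_cases h : i = j ∧ i ∈ Set.range φ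
  · obtain ⟨rfl, k, rfl⟩ := h
    rw [if_pos ⟨rfl, k, rfl⟩, Finset.sum_eq_single k]
    · rw [Matrix.transpose_apply]
      unfold Pm
      rw [if_pos rfl, one_mul]
    · intro b _ hb
      unfold Pm
      rw [if_neg (fun h => hb (hφ h).symm), zero_mul]
    · intro h
      exact absurd (Finset.mem_univ _) h
  · rw [if_neg h]
    refine Finset.sum_eq_zero fun b _ => ?_
    rw [Matrix.transpose_apply]
    unfold Pm
    split_ifs with h1 h2
    · exact absurd ⟨h1.trans h2.symm, b, h1.symm⟩ h
    all_goals simp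

end Mat

variable (W : MvPolynomial (Fin 6) ℂ) [FrOK W] [(grA W).ContainsZero]
  [(grA W).IsClosedUnderKernels]
  [(grA W).IsClosedUnderCokernels] [(grA W).IsClosedUnderFiniteProducts] [(tors W).IsSerreClass]

section

variable {ι κ μ : Type} [Fintype ι] [Fintype κ] [Fintype μ]

theorem matA_zero {q : ι → ℤ} {q' : κ → ℤ} (h : HgM q q' 0) : matA W 0 h = 0 :=
  matA_eq_zero W _ h fun _ _ => dvd_zero _

/-- reindexing -/
theorem FrA.reindex (e : κ ≃ ι) (q : ι → ℤ) : Nonempty (FrA W (q ∘ e) ≅ FrA W q) := by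
  classical
  have h : ∀ j, (q ∘ e) j = q (e j) := fun _ => rfl
  refine ⟨⟨matA W (Pm e) (hgM_Pm h), matA W (Pm e).transpose (hgM_Pt h), ?_, ?_⟩⟩
  · rw [matA_comp, matA_congr W _ HgM.one (Pt_mul_Pm e.injective), matA_one]
  · rw [matA_comp, matA_congr W _ HgM.one, matA_one]
    ext1 i j
    rw [Pm_mul_Pt _ e.injective, Matrix.one_apply]
    exact if_congr ⟨fun h => h.1, fun h => ⟨h, e.surjective i⟩⟩ rfl rfl

/-- the split short exact sequence `0 → FrA (q none) → FrA q → FrA (q ∘ some) → 0` -/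
theorem FrA.split (q : Option κ → ℤ) :
    ∃ (f : FrA W (fun _ : Fin 1 => q none) ⟶ FrA W q) (g : FrA W q ⟶ FrA W (q ∘ some))
      (w : f ≫ g = 0), Nonempty (ShortComplex.mk f g w).Splitting := by
  classical
  have h1 : ∀ j : Fin 1, (fun _ : Fin 1 => q none) j = q ((fun _ : Fin 1 => none) j) :=
    fun _ => rfl
  have h2 : ∀ j, (q ∘ some) j = q (some j) := fun _ => rfl
  have i1 : Function.Injective (fun _ : Fin 1 => (none : Option κ)) :=
    fun a b _ => Subsingleton.elim a b
  have i2 : Function.Injective (some : κ → Option κ) := Option.some_injective κ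
  have hw : matA W (Pm fun _ : Fin 1 => (none : Option κ)) (hgM_Pm h1) ≫
      matA W (Pm some).transpose (hgM_Pt h2) = 0 := by
    rw [matA_comp, matA_congr W _ HgM.zero (Pt_mul_Pm_zero fun i j => by simp), matA_zero]
  have hr : matA W (Pm fun _ : Fin 1 => (none : Option κ)) (hgM_Pm h1) ≫
      matA W (Pm fun _ : Fin 1 => (none : Option κ)).transpose (hgM_Pt h1) = 𝟙 _ := by
    rw [matA_comp, matA_congr W _ HgM.one (Pt_mul_Pm i1), matA_one]
  have hs : matA W (Pm (some : κ → Option κ)) (hgM_Pm h2) ≫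
      matA W (Pm some).transpose (hgM_Pt h2) = 𝟙 _ := by
    rw [matA_comp, matA_congr W _ HgM.one (Pt_mul_Pm i2), matA_one]
  refine ⟨_, _, hw, ⟨⟨matA W (Pm fun _ : Fin 1 => none).transpose (hgM_Pt h1),
    matA W (Pm some) (hgM_Pm h2), hr, hs, ?_⟩⟩⟩
  · change matA W (Pm fun _ : Fin 1 => (none : Option κ)).transpose (hgM_Pt h1) ≫
      matA W (Pm fun _ : Fin 1 => (none : Option κ)) (hgM_Pm h1) +
        matA W (Pm some).transpose (hgM_Pt h2) ≫ matA W (Pm (some : κ → Option κ)) (hgM_Pm h2) =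
          𝟙 (FrA W q)
    rw [matA_comp, matA_comp, ← matA_add W _ _ (((hgM_Pt h1).mul (hgM_Pm h1)).add
      ((hgM_Pt h2).mul (hgM_Pm h2))), matA_congr W _ HgM.one, matA_one]
    ext1 i j
    rw [Matrix.add_apply, Pm_mul_Pt _ i1, Pm_mul_Pt _ i2, Matrix.one_apply]
    cases i with
    | none =>
      by_cases h : none = j
      · subst h; simp
      · simp [h]
    | some i =>
      by_cases h : some i = j
      · subst h; simp
      · simp [h]

theorem FrA.isZero_of_odd (q : ι → ℤ) (h : ∀ i, ¬ Even (q i)) : IsZero (FrA W q) := by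
  classical
  rw [IsZero.iff_id_eq_zero, ← matA_one W HgM.one, ← matA_zero W HgM.zero]
  exact ((matSt W q q).2 _ _ _ _).2 fun i j hj => absurd hj (h j)

variable {I : DerivedCategory (Coh W) → Prop}

theorem sgZero (hI : TriCl I) {M : GA W} (hM : IsZero M) :
    I ((DerivedCategory.singleFunctor (Coh W) 0).obj ((piA W).obj M)) :=
  hI.zero _ ((DerivedCategory.singleFunctor (Coh W) 0).map_isZero ((piA W).map_isZero hM))

theorem sgIso (hI : TriCl I) {M N : GA W} (e : M ≅ N)
    (h : I ((DerivedCategory.singleFunctor (Coh W) 0).obj ((piA W).obj M))) :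
    I ((DerivedCategory.singleFunctor (Coh W) 0).obj ((piA W).obj N)) :=
  hI.iso _ _ ((DerivedCategory.singleFunctor (Coh W) 0).mapIso ((piA W).mapIso e)) h

theorem sgOne (hI : TriCl I) (hO : ∀ n : ℤ, I (OD W n)) (q : Fin 1 → ℤ) :
    I ((DerivedCategory.singleFunctor (Coh W) 0).obj ((piA W).obj (FrA W q))) := by
  by_cases h : Even (q 0)
  · obtain ⟨n, hn⟩ := h
    have h1 := hO (-n)
    have h2 : q = fun _ : Fin 1 => -2 * (-n) := by
      funext i
      rw [Subsingleton.elim i 0, hn]
      ring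
    rw [h2]
    exact h1
  · exact sgZero W hI (FrA.isZero_of_odd W q fun i => by rwa [Subsingleton.elim i 0])

/-- free modules are in the triangulated subcategory generated by the line bundles -/
theorem sgFr (hI : TriCl I) (hO : ∀ n : ℤ, I (OD W n)) {ι : Type} [Fintype ι] (q : ι → ℤ) :
    I ((DerivedCategory.singleFunctor (Coh W) 0).obj ((piA W).obj (FrA W q))) := by
  have key : ∀ (ι : Type) [Fintype ι], ∀ q : ι → ℤ,
      I ((DerivedCategory.singleFunctor (Coh W) 0).obj ((piA W).obj (FrA W q))) := by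
    intro ι hι
    refine Fintype.induction_empty_option
      (P := fun (ι : Type) [Fintype ι] => ∀ q : ι → ℤ,
        I ((DerivedCategory.singleFunctor (Coh W) 0).obj ((piA W).obj (FrA W q)))) ?_ ?_ ?_ ι
    · intro α β _ e h q
      let _ : Fintype α := Fintype.ofEquiv β e.symm
      obtain ⟨e'⟩ := FrA.reindex W e q
      exact sgIso W hI e' (h _)
    · intro q
      exact sgZero W hI (FrA.isZero_of_odd W q fun i => i.elim)
    · intro α _ h q
      obtain ⟨f, g, w, ⟨s⟩⟩ := FrA.split W q
      have hS := (s.map (piA W)).shortExact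
      exact ses₂ hI hS (sgOne W hI hO _) (h _)
  exact key ι q

/-- all line bundles from those of nonnegative degree -/
theorem ohull (hI : TriCl I) (h0 : ∀ n : ℤ, 0 ≤ n → I (OD W n)) (hK : KosSt W) :
    ∀ n, I (OD W n) := by
  have key : ∀ k : ℕ, ∀ n : ℤ, -(k : ℤ) ≤ n → I (OD W n) := by
    intro k
    induction k with
    | zero => exact fun n hn => h0 n (by simpa using hn)
    | succ k ih =>
      intro n hn
      by_cases h : -(k : ℤ) ≤ n
      · exact ih n h
      · exact (hK I hI n).1 fun j hj _ => ih _ (by push_cast at hn; lia)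
  exact fun n => key n.natAbs n (by lia)

end

end Vale.Agent.P287Z.O.H408
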